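import Mathlib

namespace Vale.Agent.Results.P057.DyadicCriterion

/-- `s` contains a `k`-term arithmetic progression `a, a+d, …, a+(k-1)d` with `d > 0`. -/
def HasAP (k : ℕ) (s : Set ℕ) : Prop :=
  ∃ a d : ℕ, 0 < d ∧ ∀ i : ℕ, i < k → a + i * d ∈ s

open Classical in
/-- `r k N`: the largest cardinality of a subset of `{1,…,N}` with no `k`-term progression. -/
noncomputable def r (k N : ℕ) : ℕ :=
  ((Finset.Icc 1 N).powerset.filter (fun s : Finset ℕ => ¬ HasAP k (s : Set ℕ))).sup Finset.card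

theorem HasAP.mono {k : ℕ} {s t : Set ℕ} (h : s ⊆ t) (hs : HasAP k s) : HasAP k t := by
  obtain ⟨a, d, hd, ha⟩ := hs
  exact ⟨a, d, hd, fun i hi => h (ha i hi)⟩

theorem card_le_r {k N : ℕ} {s : Finset ℕ} (hs : s ⊆ Finset.Icc 1 N)
    (hfree : ¬ HasAP k (s : Set ℕ)) : s.card ≤ r k N := by
  classical
  unfold r
  exact Finset.le_sup (f := Finset.card) (by
    rw [Finset.mem_filter, Finset.mem_powerset]; exact ⟨hs, hfree⟩)

theorem exists_max {k : ℕ} (hk : 1 ≤ k) (N : ℕ) :
    ∃ s : Finset ℕ, s ⊆ Finset.Icc 1 N ∧ ¬ HasAP k (s : Set ℕ) ∧ s.card = r k N := by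
  classical
  have hne : ((Finset.Icc 1 N).powerset.filter
      (fun s : Finset ℕ => ¬ HasAP k (s : Set ℕ))).Nonempty := by
    refine ⟨∅, ?_⟩
    rw [Finset.mem_filter, Finset.mem_powerset]
    refine ⟨Finset.empty_subset _, ?_⟩
    rintro ⟨a, d, hd, ha⟩
    have := ha 0 (by omega)
    simp at this
  obtain ⟨s, hs, hsup⟩ := Finset.exists_mem_eq_sup _ hne Finset.card
  rw [Finset.mem_filter, Finset.mem_powerset] at hs
  exact ⟨s, hs.1, hs.2, hsup.symm⟩

theorem card_le_r_translate {k N m : ℕ} {s : Finset ℕ}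
    (hs : s ⊆ Finset.Icc (m + 1) (m + N))
    (hfree : ¬ HasAP k (s : Set ℕ)) : s.card ≤ r k N := by
  classical
  have himg : ((Finset.Icc 1 N).filter (fun x => x + m ∈ s)).image (fun x => x + m) = s := by
    ext y
    simp only [Finset.mem_image, Finset.mem_filter, Finset.mem_Icc]
    constructor
    · rintro ⟨x, ⟨_, hx⟩, rfl⟩; exact hx
    · intro hy
      have := hs hy
      rw [Finset.mem_Icc] at this
      have e : y - m + m = y := by omega
      refine ⟨y - m, ⟨⟨by omega, by omega⟩, ?_⟩, e⟩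
      rw [e]; exact hy
  have hcard : s.card = ((Finset.Icc 1 N).filter (fun x => x + m ∈ s)).card := by
    conv_lhs => rw [← himg]
    exact Finset.card_image_of_injective _ (fun x y h => by simpa using h)
  rw [hcard]
  apply card_le_r (Finset.filter_subset _ _)
  rintro ⟨a, d, hd, ha⟩
  apply hfree
  refine ⟨a + m, d, hd, fun i hi => ?_⟩
  have h1 := ha i hi
  have h2 : a + i * d ∈ (Finset.Icc 1 N).filter (fun x => x + m ∈ s) := h1
  rw [Finset.mem_filter] at h2
  have e : a + m + i * d = a + i * d + m := by ring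
  rw [e]; exact h2.2

theorem r_two_mul_le {k : ℕ} (hk : 1 ≤ k) (N : ℕ) : r k (2 * N) ≤ 2 * r k N := by
  classical
  obtain ⟨s, hs, hfree, hcard⟩ := exists_max hk (2 * N)
  have hsplit := Finset.card_filter_add_card_filter_not (s := s) (fun x => x ≤ N)
  have h1 : (s.filter (fun x => x ≤ N)).card ≤ r k N := by
    apply card_le_r
    · intro x hx
      rw [Finset.mem_filter] at hx
      have := hs hx.1
      rw [Finset.mem_Icc] at this ⊢
      exact ⟨this.1, hx.2⟩
    · intro h
      exact hfree (h.mono (Finset.coe_subset.mpr (Finset.filter_subset _ _)))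
  have h2 : (s.filter (fun x => ¬ x ≤ N)).card ≤ r k N := by
    apply card_le_r_translate (m := N)
    · intro x hx
      rw [Finset.mem_filter] at hx
      have := hs hx.1
      rw [Finset.mem_Icc] at this ⊢
      omega
    · intro h
      exact hfree (h.mono (Finset.coe_subset.mpr (Finset.filter_subset _ _)))
  omega

/-- Convergence of the dyadic series implies the reciprocal sum of every progression-free set
converges. -/
theorem summable_of_series {k : ℕ}
    (hsum : Summable (fun j : ℕ => (r k (2 ^ j) : ℝ) / 2 ^ j))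
    (A : Set ℕ) (hfree : ¬ HasAP k A) :
    Summable (fun a : A => (1 : ℝ) / ((a : ℕ) : ℝ)) := by
  classical
  have hnn : ∀ n, 0 ≤ A.indicator (fun n : ℕ => (1 : ℝ) / (n : ℝ)) n := by
    intro n
    apply Set.indicator_nonneg
    intro x _; positivity
  have hblock : ∀ J : ℕ, ∑ i ∈ Finset.Ico (2 ^ J + 1) (2 ^ (J + 1) + 1),
      A.indicator (fun n : ℕ => (1 : ℝ) / (n : ℝ)) i ≤ (r k (2 ^ J) : ℝ) / 2 ^ J := by
    intro J
    have hcard : ((Finset.Ico (2 ^ J + 1) (2 ^ (J + 1) + 1)).filter (fun x => x ∈ A)).card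
        ≤ r k (2 ^ J) := by
      apply card_le_r_translate (m := 2 ^ J)
      · intro x hx
        rw [Finset.mem_filter, Finset.mem_Ico] at hx
        rw [Finset.mem_Icc]
        have : 2 ^ (J + 1) = 2 ^ J + 2 ^ J := by ring
        omega
      · intro h
        apply hfree
        apply h.mono
        intro x hx
        have h' : x ∈ (Finset.Ico (2 ^ J + 1) (2 ^ (J + 1) + 1)).filter (fun x => x ∈ A) := hx
        rw [Finset.mem_filter] at h'
        exact h'.2
    calc ∑ i ∈ Finset.Ico (2 ^ J + 1) (2 ^ (J + 1) + 1),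
          A.indicator (fun n : ℕ => (1 : ℝ) / (n : ℝ)) i
        = ∑ i ∈ (Finset.Ico (2 ^ J + 1) (2 ^ (J + 1) + 1)).filter (fun x => x ∈ A),
            (1 : ℝ) / (i : ℝ) := by
          rw [Finset.sum_filter]
          apply Finset.sum_congr rfl
          intro i _
          by_cases hi : i ∈ A <;> simp [hi]
      _ ≤ ∑ i ∈ (Finset.Ico (2 ^ J + 1) (2 ^ (J + 1) + 1)).filter (fun x => x ∈ A),
            (1 : ℝ) / 2 ^ J := by
          apply Finset.sum_le_sum
          intro i hi
          rw [Finset.mem_filter, Finset.mem_Ico] at hi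
          have h1 : (2 : ℝ) ^ J ≤ (i : ℝ) := by
            have : 2 ^ J ≤ i := by omega
            exact_mod_cast this
          exact one_div_le_one_div_of_le (by positivity) h1
      _ = (((Finset.Ico (2 ^ J + 1) (2 ^ (J + 1) + 1)).filter (fun x => x ∈ A)).card : ℝ)
            / 2 ^ J := by
          rw [Finset.sum_const, nsmul_eq_mul]; ring
      _ ≤ (r k (2 ^ J) : ℝ) / 2 ^ J := by
          apply div_le_div_of_nonneg_right _ (by positivity)
          exact_mod_cast hcard
  have hpart : ∀ J : ℕ, ∑ i ∈ Finset.range (2 ^ J + 1),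
      A.indicator (fun n : ℕ => (1 : ℝ) / (n : ℝ)) i
      ≤ 1 + ∑ j ∈ Finset.range J, (r k (2 ^ j) : ℝ) / 2 ^ j := by
    intro J
    induction J with
    | zero =>
      have h0 : A.indicator (fun n : ℕ => (1 : ℝ) / (n : ℝ)) 0 = 0 := by
        by_cases h : (0 : ℕ) ∈ A <;> simp [h]
      have h1 : A.indicator (fun n : ℕ => (1 : ℝ) / (n : ℝ)) 1 ≤ 1 := by
        by_cases h : (1 : ℕ) ∈ A <;> simp [h]
      simp only [pow_zero, Finset.range_zero, Finset.sum_empty, add_zero]
      rw [show (1 + 1 : ℕ) = 2 from rfl, Finset.sum_range_succ, Finset.sum_range_one, h0]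
      linarith
    | succ J ih =>
      have hle : 2 ^ J + 1 ≤ 2 ^ (J + 1) + 1 := by
        have h2 : 2 ^ (J + 1) = 2 ^ J + 2 ^ J := by ring
        rw [h2]
        exact Nat.add_le_add_right (Nat.le_add_right _ _) 1
      have hsucc := Finset.sum_range_succ (fun j => (r k (2 ^ j) : ℝ) / 2 ^ j) J
      rw [← Finset.sum_range_add_sum_Ico _ hle, hsucc]
      linarith [hblock J]
  have key : Summable (A.indicator (fun n : ℕ => (1 : ℝ) / (n : ℝ))) := by
    apply summable_of_sum_range_le (c := 1 + ∑' j, (r k (2 ^ j) : ℝ) / 2 ^ j) hnn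
    intro n
    calc ∑ i ∈ Finset.range n, A.indicator (fun n : ℕ => (1 : ℝ) / (n : ℝ)) i
        ≤ ∑ i ∈ Finset.range (2 ^ n + 1), A.indicator (fun n : ℕ => (1 : ℝ) / (n : ℝ)) i := by
          apply Finset.sum_le_sum_of_subset_of_nonneg
          · intro x hx
            rw [Finset.mem_range] at hx ⊢
            have := Nat.lt_two_pow_self (n := n)
            omega
          · intro i _ _; exact hnn i
      _ ≤ 1 + ∑ j ∈ Finset.range n, (r k (2 ^ j) : ℝ) / 2 ^ j := hpart n
      _ ≤ 1 + ∑' j, (r k (2 ^ j) : ℝ) / 2 ^ j := by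
          have := hsum.sum_le_tsum (Finset.range n) (fun j _ => by positivity)
          linarith
  exact summable_subtype_iff_indicator.mpr key

/-- If every progression-free set of positive integers has convergent reciprocal sum, then the
dyadic series converges. -/
theorem series_of_erdos {k : ℕ} (hk : 3 ≤ k)
    (h : ∀ A : Set ℕ, (∀ a ∈ A, 0 < a) → ¬ HasAP k A →
      Summable (fun a : A => (1 : ℝ) / ((a : ℕ) : ℝ))) :
    Summable (fun j : ℕ => (r k (2 ^ j) : ℝ) / 2 ^ j) := by
  classical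
  choose S hS using fun j : ℕ => exists_max (k := k) (by omega) (4 ^ j)
  have hTmem : ∀ j n, n ∈ (S j).image (fun x => x + 2 * 4 ^ j) →
      2 * 4 ^ j < n ∧ n ≤ 3 * 4 ^ j := by
    intro j n hn
    rw [Finset.mem_image] at hn
    obtain ⟨x, hx, rfl⟩ := hn
    have := (hS j).1 hx
    rw [Finset.mem_Icc] at this
    omega
  have hTcard : ∀ j, ((S j).image (fun x => x + 2 * 4 ^ j)).card = r k (4 ^ j) := by
    intro j
    rw [← (hS j).2.2]
    exact Finset.card_image_of_injective _ (fun x y h => by simpa using h)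
  have hidx : ∀ j j' n n', n ∈ (S j).image (fun x => x + 2 * 4 ^ j) →
      n' ∈ (S j').image (fun x => x + 2 * 4 ^ j') → n ≤ n' → n' ≤ 2 * n → j = j' := by
    intro j j' n n' hn hn' h1 h2
    have b := hTmem j n hn
    have b' := hTmem j' n' hn'
    by_contra hne
    rcases Nat.lt_or_gt_of_ne hne with hlt | hgt
    · have h4 : 4 ^ (j + 1) ≤ 4 ^ j' := Nat.pow_le_pow_right (by norm_num) hlt
      have e : 4 ^ (j + 1) = 4 * 4 ^ j := by ring
      omega
    · have h4 : 4 ^ (j' + 1) ≤ 4 ^ j := Nat.pow_le_pow_right (by norm_num) hgt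
      have e : 4 ^ (j' + 1) = 4 * 4 ^ j' := by ring
      omega
  have hidx0 : ∀ j j' x d, x ∈ (S j').image (fun x => x + 2 * 4 ^ j') →
      x + d ∈ (S j).image (fun x => x + 2 * 4 ^ j) →
      x + 2 * d ∈ (S j).image (fun x => x + 2 * 4 ^ j) → j' = j := by
    intro j j' x d hx hy hz
    have bx := hTmem j' x hx
    have by' := hTmem j (x + d) hy
    have bz := hTmem j (x + 2 * d) hz
    by_contra hne
    rcases Nat.lt_or_gt_of_ne hne with hlt | hgt
    · have h4 : 4 ^ (j' + 1) ≤ 4 ^ j := Nat.pow_le_pow_right (by norm_num) hlt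
      have e : 4 ^ (j' + 1) = 4 * 4 ^ j' := by ring
      omega
    · have h4 : 4 ^ (j + 1) ≤ 4 ^ j' := Nat.pow_le_pow_right (by norm_num) hgt
      have e : 4 ^ (j + 1) = 4 * 4 ^ j := by ring
      omega
  have hpos : ∀ a ∈ {n : ℕ | ∃ j, n ∈ (S j).image (fun x => x + 2 * 4 ^ j)}, 0 < a := by
    rintro a ⟨j, hj⟩
    have := (hTmem j a hj).1
    omega
  have hfree : ¬ HasAP k {n : ℕ | ∃ j, n ∈ (S j).image (fun x => x + 2 * 4 ^ j)} := by
    rintro ⟨a, d, hd, ha⟩
    have hex : ∀ i, i < k → ∃ j, a + i * d ∈ (S j).image (fun x => x + 2 * 4 ^ j) :=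
      fun i hi => ha i hi
    obtain ⟨j, hj⟩ := hex 1 (by omega)
    have hall1 : ∀ i, 1 ≤ i → i < k → a + i * d ∈ (S j).image (fun x => x + 2 * 4 ^ j) := by
      intro i hi1
      induction i, hi1 using Nat.le_induction with
      | base => intro _; exact hj
      | succ i hi ih =>
        intro hik
        have hprev := ih (by omega)
        obtain ⟨j', hj'⟩ := hex (i + 1) hik
        have hd' : d ≤ i * d := Nat.le_mul_of_pos_left d (by omega)
        have e1 : (i + 1) * d = i * d + d := by ring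
        have hjj : j = j' := hidx j j' (a + i * d) (a + (i + 1) * d) hprev hj'
          (by omega) (by omega)
        rw [hjj]; exact hj'
    have h0 : a ∈ (S j).image (fun x => x + 2 * 4 ^ j) := by
      obtain ⟨j0, hj0⟩ := hex 0 (by omega)
      have h1 := hall1 1 le_rfl (by omega)
      have h2 := hall1 2 (by omega) (by omega)
      rw [zero_mul, add_zero] at hj0
      rw [one_mul] at h1
      have hj0j : j0 = j := hidx0 j j0 a d hj0 h1 h2
      rw [← hj0j]; exact hj0
    have hall : ∀ i, i < k → a + i * d ∈ (S j).image (fun x => x + 2 * 4 ^ j) := by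
      intro i hi
      rcases Nat.eq_zero_or_pos i with rfl | hpos
      · rw [zero_mul, add_zero]; exact h0
      · exact hall1 i hpos hi
    apply (hS j).2.1
    have ha0 := (hTmem j a h0).1
    refine ⟨a - 2 * 4 ^ j, d, hd, fun i hi => ?_⟩
    have hi' := hall i hi
    rw [Finset.mem_image] at hi'
    obtain ⟨x, hx, hxe⟩ := hi'
    have e : a - 2 * 4 ^ j + i * d = x := by omega
    rw [e]
    exact hx
  have hsumA := h _ hpos hfree
  have hg : Summable (Set.indicator {n : ℕ | ∃ j, n ∈ (S j).image (fun x => x + 2 * 4 ^ j)}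
      (fun n : ℕ => (1 : ℝ) / (n : ℝ))) :=
    summable_subtype_iff_indicator.mp hsumA
  have hgnn : ∀ n, 0 ≤ Set.indicator {n : ℕ | ∃ j, n ∈ (S j).image (fun x => x + 2 * 4 ^ j)}
      (fun n : ℕ => (1 : ℝ) / (n : ℝ)) n := by
    intro n
    apply Set.indicator_nonneg
    intro x _; positivity
  have hdisj : ∀ i j, i ≠ j → Disjoint ((S i).image (fun x => x + 2 * 4 ^ i))
      ((S j).image (fun x => x + 2 * 4 ^ j)) := by
    intro i j hij
    rw [Finset.disjoint_left]
    intro n hn hn'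
    exact hij (hidx i j n n hn hn' le_rfl (by omega))
  have hblock : ∀ j, (r k (4 ^ j) : ℝ) / 4 ^ j ≤
      3 * ∑ n ∈ (S j).image (fun x => x + 2 * 4 ^ j),
        Set.indicator {n : ℕ | ∃ j, n ∈ (S j).image (fun x => x + 2 * 4 ^ j)}
          (fun n : ℕ => (1 : ℝ) / (n : ℝ)) n := by
    intro j
    have hle : ∑ n ∈ (S j).image (fun x => x + 2 * 4 ^ j), (1 : ℝ) / (3 * 4 ^ j) ≤
        ∑ n ∈ (S j).image (fun x => x + 2 * 4 ^ j),
          Set.indicator {n : ℕ | ∃ j, n ∈ (S j).image (fun x => x + 2 * 4 ^ j)}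
            (fun n : ℕ => (1 : ℝ) / (n : ℝ)) n := by
      apply Finset.sum_le_sum
      intro n hn
      have hnA : n ∈ {n : ℕ | ∃ j, n ∈ (S j).image (fun x => x + 2 * 4 ^ j)} := ⟨j, hn⟩
      rw [Set.indicator_of_mem hnA]
      have b := hTmem j n hn
      have h1 : (n : ℝ) ≤ 3 * 4 ^ j := by exact_mod_cast b.2
      have h2 : (0 : ℝ) < n := by exact_mod_cast (by omega : 0 < n)
      exact one_div_le_one_div_of_le h2 h1
    rw [Finset.sum_const, nsmul_eq_mul, hTcard] at hle
    have h4 : (0 : ℝ) < 4 ^ j := by positivity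
    have e : (r k (4 ^ j) : ℝ) / 4 ^ j = 3 * ((r k (4 ^ j) : ℝ) * (1 / (3 * 4 ^ j))) := by
      field_simp
    rw [e]
    linarith
  have hmono : ∀ j, (r k (2 ^ (2 * j + 1)) : ℝ) / 2 ^ (2 * j + 1) ≤ (r k (4 ^ j) : ℝ) / 4 ^ j := by
    intro j
    have e1 : 2 ^ (2 * j + 1) = 2 * 4 ^ j := by
      rw [pow_succ, pow_mul]; norm_num; ring
    have e2 : (2 : ℝ) ^ (2 * j + 1) = 2 * 4 ^ j := by
      rw [pow_succ, pow_mul]; norm_num; ring
    have h2 := r_two_mul_le (k := k) (by omega) (4 ^ j)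
    rw [e1, e2]
    have h4 : (0 : ℝ) < 4 ^ j := by positivity
    have h3 : (r k (2 * 4 ^ j) : ℝ) ≤ 2 * r k (4 ^ j) := by exact_mod_cast h2
    rw [div_le_div_iff₀ (by positivity) h4]
    nlinarith
  have heven : ∀ j, (r k (2 ^ (2 * j)) : ℝ) / 2 ^ (2 * j) = (r k (4 ^ j) : ℝ) / 4 ^ j := by
    intro j
    have e1 : 2 ^ (2 * j) = 4 ^ j := by rw [pow_mul]; norm_num
    have e2 : (2 : ℝ) ^ (2 * j) = 4 ^ j := by rw [pow_mul]; norm_num
    rw [e1, e2]
  have hpart : ∀ J, ∑ j ∈ Finset.range (2 * J), (r k (2 ^ j) : ℝ) / 2 ^ j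
      ≤ 6 * ∑ j ∈ Finset.range J, ∑ n ∈ (S j).image (fun x => x + 2 * 4 ^ j),
        Set.indicator {n : ℕ | ∃ j, n ∈ (S j).image (fun x => x + 2 * 4 ^ j)}
          (fun n : ℕ => (1 : ℝ) / (n : ℝ)) n := by
    intro J
    induction J with
    | zero => simp
    | succ J ih =>
      have e : 2 * (J + 1) = 2 * J + 1 + 1 := by ring
      have s1 := Finset.sum_range_succ (fun j => (r k (2 ^ j) : ℝ) / 2 ^ j) (2 * J + 1)
      have s2 := Finset.sum_range_succ (fun j => (r k (2 ^ j) : ℝ) / 2 ^ j) (2 * J)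
      have s3 := Finset.sum_range_succ (fun j => ∑ n ∈ (S j).image (fun x => x + 2 * 4 ^ j),
        Set.indicator {n : ℕ | ∃ j, n ∈ (S j).image (fun x => x + 2 * 4 ^ j)}
          (fun n : ℕ => (1 : ℝ) / (n : ℝ)) n) J
      rw [e, s1, s2, s3]
      have h1 := hblock J
      have h2 := hmono J
      have h3 := heven J
      linarith
  apply summable_of_sum_range_le (c := 6 * ∑' n,
    Set.indicator {n : ℕ | ∃ j, n ∈ (S j).image (fun x => x + 2 * 4 ^ j)}
      (fun n : ℕ => (1 : ℝ) / (n : ℝ)) n) (fun j => by positivity)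
  intro n
  calc ∑ j ∈ Finset.range n, (r k (2 ^ j) : ℝ) / 2 ^ j
      ≤ ∑ j ∈ Finset.range (2 * n), (r k (2 ^ j) : ℝ) / 2 ^ j := by
        apply Finset.sum_le_sum_of_subset_of_nonneg
        · intro x hx
          rw [Finset.mem_range] at hx ⊢
          omega
        · intro i _ _; positivity
    _ ≤ 6 * ∑ j ∈ Finset.range n, ∑ m ∈ (S j).image (fun x => x + 2 * 4 ^ j),
          Set.indicator {n : ℕ | ∃ j, n ∈ (S j).image (fun x => x + 2 * 4 ^ j)}
            (fun n : ℕ => (1 : ℝ) / (n : ℝ)) m := hpart n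
    _ = 6 * ∑ m ∈ (Finset.range n).biUnion (fun j => (S j).image (fun x => x + 2 * 4 ^ j)),
          Set.indicator {n : ℕ | ∃ j, n ∈ (S j).image (fun x => x + 2 * 4 ^ j)}
            (fun n : ℕ => (1 : ℝ) / (n : ℝ)) m := by
        rw [Finset.sum_biUnion]
        intro i _ j _ hij
        exact hdisj i j hij
    _ ≤ 6 * ∑' m, Set.indicator {n : ℕ | ∃ j, n ∈ (S j).image (fun x => x + 2 * 4 ^ j)}
            (fun n : ℕ => (1 : ℝ) / (n : ℝ)) m := by
        have := hg.sum_le_tsum ((Finset.range n).biUnion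
          (fun j => (S j).image (fun x => x + 2 * 4 ^ j))) (fun m _ => hgnn m)
        linarith

/-- **Dyadic criterion.** For every `k ≥ 3`, the Erdős conjecture for `k`-term progressions
(every set of positive integers with divergent reciprocal sum contains a `k`-term progression)
holds if and only if the series `∑_j r_k(2^j) / 2^j` converges. -/
theorem result (k : ℕ) (hk : 3 ≤ k) :
    (∀ A : Set ℕ, (∀ a ∈ A, 0 < a) →
        ¬ Summable (fun a : A => (1 : ℝ) / ((a : ℕ) : ℝ)) → HasAP k A) ↔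
      Summable (fun j : ℕ => (r k (2 ^ j) : ℝ) / 2 ^ j) := by
  constructor
  · intro h
    apply series_of_erdos hk
    intro A hpos hfree
    by_contra hns
    exact hfree (h A hpos hns)
  · intro hsum A _ hns
    by_contra hfree
    exact hns (summable_of_series hsum A hfree)

end Vale.Agent.Results.P057.DyadicCriterion
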